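import Vale.Agent.P216.Main

open scoped Manifold ContDiff
open Vale.Agent.P255 Vale.Agent.P234 Vale.Agent.P216

theorem Vale.Agent.Results.P216.Centraliser.result (E : Type) [NormedAddCommGroup E]
    [NormedSpace ℝ E] [FiniteDimensional ℝ E] (M : Type) [MetricSpace M] [CompactSpace M]
    [ChartedSpace E M] [IsManifold 𝓘(ℝ, E) ∞ M] (g : RMetric E M) (hd : IsGeodesicDist g)
    (G X : Type) [Group G] [TopologicalSpace X] [SimplyConnectedSpace X] [MulAction G X]
    (p : X → M) (hp : IsQuotientCoveringMap p G) :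
    (∀ w : G, Balanced w →
      (¬ IsCyclic (Subgroup.centralizer ({w} : Set G)) ∨ IsProduct G ∨ HasFC G) →
      (Images (E := E) g.inner).Infinite) ∧
    ∀ (χ : G →* Multiplicative ℤ) (w : G), χ w ≠ 1 → Balanced w :=
  ⟨main_bal g hd G X p hp, fun χ _ h => balanced_of_hom χ h⟩
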