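import Vale.Agent.Results.P216.Betti
import Vale.Agent.Results.P216.Centraliser

open scoped Manifold ContDiff
open Vale.Agent.P255 Vale.Agent.P234 Vale.Agent.P216

theorem Vale.Agent.Results.P216.All.result (E : Type) [NormedAddCommGroup E]
    [NormedSpace ℝ E] [FiniteDimensional ℝ E] (M : Type) [MetricSpace M] [CompactSpace M]
    [ChartedSpace E M] [IsManifold 𝓘(ℝ, E) ∞ M] (g : RMetric E M) (hd : IsGeodesicDist g)
    (G X : Type) [Group G] [TopologicalSpace X] [SimplyConnectedSpace X] [MulAction G X]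
    (p : X → M) (hp : IsQuotientCoveringMap p G) :
    (∀ (H : Subgroup G) [H.FiniteIndex] (χ : H →* Multiplicative ℤ), χ ≠ 1 →
      ((Group.ResiduallyFinite H ∧ ¬ IsCyclic H) ∨
        (∃ N : Subgroup H, N.FiniteIndex ∧ ¬ χ.ker ≤ N) ∨
        (∃ w : H, χ w ≠ 1 ∧ ¬ IsCyclic (Subgroup.centralizer ({(w : G)} : Set G))) ∨
        IsProduct G ∨ HasFC G) →
      (Images (E := E) g.inner).Infinite) ∧
    (∀ w : G, Balanced w →
      (¬ IsCyclic (Subgroup.centralizer ({w} : Set G)) ∨ IsProduct G ∨ HasFC G) →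
      (Images (E := E) g.inner).Infinite) :=
  ⟨fun H _ χ hχ h => Vale.Agent.Results.P216.Betti.result E M g hd G X p hp H χ hχ h,
    (Vale.Agent.Results.P216.Centraliser.result E M g hd G X p hp).1⟩
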