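import Vale.Agent.P216.RF

open scoped Manifold ContDiff
open Vale.Agent.P255 Vale.Agent.P234 Vale.Agent.P216

theorem Vale.Agent.Results.P216.Betti.result (E : Type) [NormedAddCommGroup E]
    [NormedSpace ℝ E] [FiniteDimensional ℝ E] (M : Type) [MetricSpace M] [CompactSpace M]
    [ChartedSpace E M] [IsManifold 𝓘(ℝ, E) ∞ M] (g : RMetric E M) (hd : IsGeodesicDist g)
    (G X : Type) [Group G] [TopologicalSpace X] [SimplyConnectedSpace X] [MulAction G X]
    (p : X → M) (hp : IsQuotientCoveringMap p G)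
    (H : Subgroup G) [H.FiniteIndex] (χ : H →* Multiplicative ℤ) (hχ : χ ≠ 1)
    (h : (Group.ResiduallyFinite H ∧ ¬ IsCyclic H) ∨
      (∃ N : Subgroup H, N.FiniteIndex ∧ ¬ χ.ker ≤ N) ∨
      (∃ w : H, χ w ≠ 1 ∧ ¬ IsCyclic (Subgroup.centralizer ({(w : G)} : Set G))) ∨
      IsProduct G ∨ HasFC G) :
    (Images (E := E) g.inner).Infinite := by
  obtain ⟨t, ht⟩ : ∃ t, χ t ≠ 1 := by
    by_contra h
    push Not at h
    exact hχ (MonoidHom.ext h)
  rcases h with ⟨h1, h2⟩ | ⟨N, h1, h2⟩ | ⟨w, h1, h2⟩ | h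
  · exact fun hf => h2 (((ncc_of_finite g hd G X p hp hf).subgroup H).isCyclic χ hχ)
  · exact fun hf => h2 ((((ncc_of_finite g hd G X p hp hf).subgroup H).ker_le χ hχ
      N.normalCore).trans N.normalCore_le)
  · exact main_bal g hd G X p hp w (balanced_of_virtual H χ h1) (Or.inl h2)
  · exact main_bal g hd G X p hp t (balanced_of_virtual H χ ht) (Or.inr h)
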